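import Vale.Agent.P034.Defs
import Vale.Agent.P034.H953.Uniform
import Vale.Agent.P034.H434.Selector

namespace Vale.Agent.Results.P034.LogSelector

universe u

/-- (1) Talagrand's conjecture with the constant `736`: for every finite nonempty `X` and every
nonempty proper increasing family `F` of subsets of `X`, the largest `p` for which `F` has a cover
`G` with `∑_{S ∈ G} p ^ |S| ≤ 1/2` and the largest `p` for which `F` has a fractional cover `g`
with `∑_S g(S) p ^ |S| ≤ 1/2` exist, and the second is at most `736` times the first.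
(2) The multi-scale selector inequality: for every finite `X`, all `q_x > 0`, every family `F` and
all weights `w_H ≥ 0` on the members `H` of `F` with total mass at most one, there is a cover `G`
of `F` whose cost at `q`, times the probability that a uniform random point `u` of the cube
`[0,1]^X` satisfies `∑_{x ∈ H} w_H(x) log⁺ (u_x / (171 q_x)) > 1/4` for all `H` in `F`, is at
most `21/100`. -/
theorem result :
    (∀ (X : Type u) [Fintype X] [Nonempty X] (F : Set (Finset X)),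
      F.Nonempty → F ≠ Set.univ → IsUpperSet F →
        ∃ q qf : ℝ,
          IsGreatest {p : ℝ | 0 ≤ p ∧ p ≤ 1 ∧ ∃ G : Finset (Finset X),
            (∀ H ∈ F, ∃ S ∈ G, S ⊆ H) ∧ ∑ S ∈ G, p ^ S.card ≤ 1 / 2} q ∧
          IsGreatest {p : ℝ | 0 ≤ p ∧ p ≤ 1 ∧ ∃ g : Finset X → ℝ,
            (∀ S, 0 ≤ g S ∧ g S ≤ 1) ∧ (∀ H ∈ F, 1 ≤ ∑ S ∈ H.powerset, g S) ∧
              ∑ S : Finset X, g S * p ^ S.card ≤ 1 / 2} qf ∧
          qf ≤ 736 * q) ∧
    (∀ (X : Type u) [Fintype X] (F : Set (Finset X)) (q : X → ℝ) (w : Finset X → X → ℝ),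
      (∀ x, 0 < q x) → (∀ H ∈ F, ∀ x ∈ H, 0 ≤ w H x) → (∀ H ∈ F, ∑ x ∈ H, w H x ≤ 1) →
        ∃ G : Finset (Finset X), (∀ H ∈ F, ∃ S ∈ G, S ⊆ H) ∧
          (∑ S ∈ G, ∏ x ∈ S, q x) *
            (MeasureTheory.volume {u : X → ℝ | (∀ x, u x ∈ Set.Icc (0 : ℝ) 1) ∧ ∀ H ∈ F,
              1 / 4 < ∑ x ∈ H, w H x * Real.posLog (u x / (171 * q x))}).toReal ≤
            21 / 100) := by
  classical
  refine ⟨fun X _ _ F _ hne hup => ?_, fun X _ F q w hq hw hs =>
    Vale.Agent.P034.H953.H434.selector F q hq w hw hs⟩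
  obtain ⟨h1, h2, h3⟩ := Vale.Agent.P034.H953.talagrand F hne hup
  refine ⟨_, _, h1, ?_, h3⟩
  convert h2 using 1
  ext p
  constructor
  · rintro ⟨a, b, g, c, d, e⟩
    exact ⟨a, b, g, ⟨c, d⟩, e⟩
  · rintro ⟨a, b, g, ⟨c, d⟩, e⟩
    exact ⟨a, b, g, c, d, e⟩

end Vale.Agent.Results.P034.LogSelector
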