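import Vale.Agent.P034.Defs
import Vale.Agent.P034.H953.Uniform
import Vale.Agent.P034.H953.Dual
import Vale.Agent.P034.H953.Infinite

namespace Vale.Agent.Results.P034.ProductWeights

open Vale.Agent.P034

universe u

/-- Talagrand's conjecture, with the constant `736`, and its version for arbitrary product
weights, all cost levels and arbitrary ground sets, together with the min-max form. -/
theorem result :
    -- (1) the conjecture as posed: both maxima exist and `q_f(F) ≤ 736 * q(F)`
    (∀ (X : Type u) [Fintype X] [Nonempty X] (F : Set (Finset X)),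
      F.Nonempty → F ≠ Set.univ → IsUpperSet F →
        IsGreatest {p : ℝ | 0 ≤ p ∧ p ≤ 1 ∧ IsSmall p F} (expThreshold F) ∧
        IsGreatest {p : ℝ | 0 ≤ p ∧ p ≤ 1 ∧
          ∃ g : Finset X → ℝ, IsFracCover g F ∧ fracCost g p ≤ 1 / 2} (fracExpThreshold F) ∧
        fracExpThreshold F ≤ 736 * expThreshold F) ∧
    -- (2) arbitrary set `X`, arbitrary family `F` of finite subsets, arbitrary weights `p`:
    -- a fractional cover of finite cost at `p` gives a cover of at most that cost at `p / 1472`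
    (∀ (X : Type u) (F : Set (Finset X)) (p : X → ℝ) (g : Finset X → ℝ),
      (∀ x, 0 ≤ p x) → (∀ S, 0 ≤ g S) → (∀ H ∈ F, 1 ≤ ∑ S ∈ H.powerset, g S) →
      Summable (fun S : Finset X => g S * ∏ x ∈ S, p x) →
        ∃ G : Set (Finset X), (∀ H ∈ F, ∃ S ∈ G, S ⊆ H) ∧
          Summable (fun S : G => ∏ x ∈ (S : Finset X), (p x / 1472)) ∧
          ∑' S : G, ∏ x ∈ (S : Finset X), (p x / 1472) ≤
            ∑' S : Finset X, g S * ∏ x ∈ S, p x) ∧
    -- (3) finite `X`: a cover `G` and a `p`-spread measure `μ` on `F` with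
    -- cost of `G` at `p / 1472` at most the mass of `μ`
    (∀ (X : Type u) [Fintype X] (F : Set (Finset X)) (p : X → ℝ), (∀ x, 0 ≤ p x) →
      ∃ (G : Finset (Finset X)) (μ : Finset X → ℝ), Covers G F ∧ (∀ H, 0 ≤ μ H) ∧
        (∀ H, H ∉ F → μ H = 0) ∧
        (∀ S : Finset X,
          ∑ H : Finset X, Set.indicator {H : Finset X | S ⊆ H} μ H ≤ ∏ x ∈ S, p x) ∧
        ∑ S ∈ G, ∏ x ∈ S, (p x / 1472) ≤ ∑ H : Finset X, μ H) := by
  classical
  refine ⟨fun X _ _ F _ hne hup => H953.talagrand F hne hup,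
    fun X F p g hp hg hF hs => H953.scale_infinite F p hp g hg hF hs, ?_⟩
  intro X _ F p hp
  obtain ⟨G, μ, h1, h2, h3, h4, h5⟩ := H953.dual F p hp
  refine ⟨G, μ, h1, h2, h3, ?_, h5⟩
  intro S
  refine le_trans (le_of_eq ?_) (h4 S)
  apply Finset.sum_congr rfl
  intro H _
  by_cases h : S ⊆ H
  · rw [if_pos h, Set.indicator_of_mem (show H ∈ {H : Finset X | S ⊆ H} from h)]
  · rw [if_neg h, Set.indicator_of_notMem (show H ∉ {H : Finset X | S ⊆ H} from h)]

end Vale.Agent.Results.P034.ProductWeights
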