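import Vale.Agent.P034.H953.Uniform
import Vale.Agent.P034.H52.Linear

namespace Vale.Agent.Results.P034.SelectorProcesses

open Vale.Agent.P034

universe u

/-- Talagrand's conjecture `q_f ≤ K q` with `K = 736`, a common generalisation of it and of the
selector process theorem (suprema of nonnegative polynomials, arbitrary product measures), and
the selector process theorem for arbitrary product measures. -/
theorem result :
    -- (1) the conjecture as posed: the maxima `q` and `q_f` exist and `q ≤ q_f ≤ 736 q`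
    (∀ (X : Type u) [Fintype X] [Nonempty X] (F : Set (Finset X)),
      F.Nonempty → F ≠ Set.univ → IsUpperSet F →
        ∃ q qf : ℝ,
          IsGreatest {p : ℝ | 0 ≤ p ∧ p ≤ 1 ∧ ∃ G : Finset (Finset X),
            (∀ H ∈ F, ∃ S ∈ G, S ⊆ H) ∧ ∑ S ∈ G, p ^ S.card ≤ 1 / 2} q ∧
          IsGreatest {p : ℝ | 0 ≤ p ∧ p ≤ 1 ∧ ∃ g : Finset X → ℝ,
            (∀ S, 0 ≤ g S ∧ g S ≤ 1) ∧ (∀ H ∈ F, 1 ≤ ∑ S ∈ H.powerset, g S) ∧
            ∑ S : Finset X, g S * p ^ S.card ≤ 1 / 2} qf ∧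
          q ≤ qf ∧ qf ≤ 736 * q) ∧
    -- (2) a set `T` of nonnegative polynomials `W ↦ ∑_{S ⊆ W} t S`, independent marginals `r x`:
    -- the sets `H` at which some `t ∈ T` is at least `1` have a cover `G` of cost at most
    -- `6 * E b` at `r / 214`, for every majorant `b` of the polynomials of `2 ^ |S| t S`
    (∀ (X : Type u) [Fintype X] [DecidableEq X] (r : X → ℝ), (∀ x, 0 ≤ r x ∧ r x ≤ 1) →
      ∀ (T : Set (Finset X → ℝ)), (∀ t ∈ T, ∀ S, 0 ≤ t S) →
      ∀ b : Finset X → ℝ, (∀ W, 0 ≤ b W) →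
        (∀ t ∈ T, ∀ W : Finset X, ∑ S ∈ W.powerset, 2 ^ S.card * t S ≤ b W) →
        ∃ G : Finset (Finset X),
          (∀ H : Finset X, (∃ t ∈ T, 1 ≤ ∑ S ∈ H.powerset, t S) → ∃ S ∈ G, S ⊆ H) ∧
          ∑ S ∈ G, ∏ x ∈ S, (r x / 214) ≤
            6 * ∑ W : Finset X, ((∏ x ∈ W, r x) * ∏ x ∈ Wᶜ, (1 - r x)) * b W) ∧
    -- (3) the linear case: for every product measure `p` and every set `T` of nonnegative
    -- vectors with supremum `s W = sup_t ∑_{x ∈ W} t x` and mean `M = E s > 0`, the sets `W`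
    -- with `s W ≥ L * M` have a cover of cost at most `2568 / (L - 214)` at `p`
    (∀ (X : Type u) [Fintype X] [DecidableEq X] (p : X → ℝ), (∀ x, 0 ≤ p x ∧ p x ≤ 1) →
      ∀ (T : Set (X → ℝ)), (∀ t ∈ T, ∀ x, 0 ≤ t x) →
      ∀ s : Finset X → ℝ,
        (∀ W : Finset X, IsLUB ((fun t : X → ℝ => ∑ x ∈ W, t x) '' T) (s W)) →
      ∀ M : ℝ, M = ∑ W : Finset X, ((∏ x ∈ W, p x) * ∏ x ∈ Wᶜ, (1 - p x)) * s W → 0 < M →
      ∀ L : ℝ, 214 < L →
        ∃ G : Finset (Finset X),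
          (∀ W : Finset X, L * M ≤ s W → ∃ S ∈ G, S ⊆ W) ∧
          ∑ S ∈ G, ∏ x ∈ S, p x ≤ 2568 / (L - 214)) := by
  refine ⟨?_, ?_, ?_⟩
  · intro X _ _ F _ hne hup
    obtain ⟨h1, h2, h3⟩ := H953.talagrand F hne hup
    refine ⟨expThreshold F, fracExpThreshold F, h1, ?_, ?_, h3⟩
    · constructor
      · obtain ⟨⟨a, b, g, ⟨hg, hc⟩, hcost⟩, _⟩ := h2
        exact ⟨a, b, g, hg, hc, hcost⟩
      · rintro p ⟨a, b, g, hg, hc, hcost⟩
        exact h2.2 ⟨a, b, g, ⟨hg, hc⟩, hcost⟩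
    · classical
      apply h2.2
      obtain ⟨⟨a, b, G, hG, hcost⟩, _⟩ := h1
      refine ⟨a, b, fun S => if S ∈ G then 1 else 0, ⟨?_, ?_⟩, ?_⟩
      · intro S
        show 0 ≤ (if S ∈ G then (1 : ℝ) else 0) ∧ (if S ∈ G then (1 : ℝ) else 0) ≤ 1
        split_ifs <;> norm_num
      · intro H hH
        obtain ⟨S, hS, hSH⟩ := hG H hH
        have h4 := Finset.single_le_sum (f := fun S : Finset X => if S ∈ G then (1 : ℝ) else 0)
          (fun S _ => by
            show 0 ≤ (if S ∈ G then (1 : ℝ) else 0)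
            split_ifs <;> norm_num) (Finset.mem_powerset.mpr hSH)
        simp only [if_pos hS] at h4
        exact h4
      · refine le_trans (le_of_eq ?_) hcost
        unfold fracCost coverCost
        simp only [ite_mul, one_mul, zero_mul]
        rw [Finset.sum_ite_mem, Finset.univ_inter]
  · intro X _ _ r hr T hT b hb0 hb
    exact H52.poly r (fun x => (hr x).1) (fun x => (hr x).2) T hT b hb0 hb
  · intro X _ _ p hp T hT s hs M hM hM0 L hL
    subst hM
    exact H52.selector p (fun x => (hp x).1) (fun x => (hp x).2) T hT s hs hM0 L hL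

end Vale.Agent.Results.P034.SelectorProcesses
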